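import Vale.Agent.N230.Main

/-!
# P230: the lower bound `n log n` for coverings by congruent copies
-/

namespace Vale.Agent.Results.P230.A0Congruent

open MeasureTheory Filter
open scoped Pointwise

variable {n : ℕ}

/-- A convex body: a compact convex set with nonempty interior. -/
def IsBody (K : Set (EuclideanSpace ℝ (Fin n))) : Prop :=
  IsCompact K ∧ Convex ℝ K ∧ (interior K).Nonempty

/-- The cube `Q_R = [-R, R]^n`. -/
def Q (n : ℕ) (R : ℝ) : Set (EuclideanSpace ℝ (Fin n)) := {x | ∀ i, |x i| ≤ R}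

/-- `θ_C(K)`, the density of the thinnest covering by congruent copies: the infimum of
`vol(K) * liminf_{R → ∞} #{g ∈ G : g(0) ∈ Q_R} / (2R)^n` over all sets `G` of isometries of `ℝ^n`
such that the copies `g(K)`, `g ∈ G`, cover `ℝ^n`. -/
noncomputable def thetaC (K : Set (EuclideanSpace ℝ (Fin n))) : ENNReal :=
  ⨅ (G : Set (EuclideanSpace ℝ (Fin n) ≃ᵢ EuclideanSpace ℝ (Fin n)))
    (_ : ⋃ g ∈ G, g '' K = Set.univ),
    volume K * liminf (fun R : ℝ => ({g ∈ G | g 0 ∈ Q n R}.encard : ENNReal) /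
      ENNReal.ofReal ((2 * R) ^ n)) atTop

/-- In every dimension there is a symmetric body `K` with `0.9999 B ⊆ K ⊆ B`,
`θ_C(K) ≥ c n log n`, such that `N` congruent copies of `K` covering a cube `Q_R` of any size
satisfy `N vol(K) ≥ c n log n (2R)^n`. -/
theorem result :
    ∃ c : ℝ, 0 < c ∧ ∀ n : ℕ, 2 ≤ n → ∃ K : Set (EuclideanSpace ℝ (Fin n)), IsBody K ∧ -K = K ∧
      Metric.closedBall 0 0.9999 ⊆ K ∧ K ⊆ Metric.closedBall 0 1 ∧
      ENNReal.ofReal (c * n * Real.log n) ≤ thetaC K ∧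
      ∀ (R : ℝ) (G : Finset (EuclideanSpace ℝ (Fin n) ≃ᵢ EuclideanSpace ℝ (Fin n))), 0 < R →
        Q n R ⊆ ⋃ g ∈ G, g '' K →
          c * n * Real.log n * (2 * R) ^ n ≤ G.card * (volume K).toReal := by
  obtain ⟨c, hc, hlow⟩ := Vale.Agent.N230.cube_all
  have h3 : ∀ n : ℕ, 2 ≤ n → ∃ K : Set (EuclideanSpace ℝ (Fin n)), IsBody K ∧ -K = K ∧
      Metric.closedBall 0 0.9999 ⊆ K ∧ K ⊆ Metric.closedBall 0 1 ∧
      ENNReal.ofReal (c / 2 * n * Real.log n) ≤ thetaC K ∧
      ∀ (R : ℝ) (G : Finset (EuclideanSpace ℝ (Fin n) ≃ᵢ EuclideanSpace ℝ (Fin n))), 0 < R →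
        Q n R ⊆ ⋃ g ∈ G, g '' K →
          c / 2 * n * Real.log n * (2 * R) ^ n ≤ G.card * (volume K).toReal := by
    intro n hn
    obtain ⟨K, h1, h2, h3, h4, h5, h6⟩ := hlow n hn
    have hlog : 0 ≤ Real.log n := Real.log_natCast_nonneg n
    have hK0 : volume K ≠ 0 :=
      ((Metric.measure_closedBall_pos volume 0 (by norm_num)).trans_le (measure_mono h4)).ne'
    refine ⟨K, ⟨h2, h1, 0, interior_mono h4 (Metric.ball_subset_interior_closedBall
      (Metric.mem_ball_self (by norm_num)))⟩, ?_, h4, h5, ?_, fun R G hR hG => ?_⟩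
    · ext w
      rw [Set.mem_neg]
      exact ⟨fun h => neg_neg w ▸ h3 _ h, h3 w⟩
    · refine le_iInf fun G => le_iInf fun hG => ?_
      have h7 := Vale.Agent.N230.dens_of_cube hK0 h5 h6 (by positivity) (G := G) (fun z => by
        obtain ⟨g, hg, hz⟩ := Set.mem_iUnion₂.1 (Set.eq_univ_iff_forall.1 hG z)
        exact ⟨g, hg, hz⟩)
      refine le_trans (le_of_eq ?_) h7
      congr 1
      ring
    · refine le_trans ?_ (h6 G R hR fun z hz => ?_)
      · have : 0 ≤ c * n * Real.log n * (2 * R) ^ n := by positivity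
        linarith only [this]
      · obtain ⟨g, hg, hz⟩ := Set.mem_iUnion₂.1 (hG hz)
        exact ⟨g, hg, hz⟩
  exact ⟨c / 2, half_pos hc, h3⟩

end Vale.Agent.Results.P230.A0Congruent
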